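import Crest.Agent.X262.Rsd.Loc

/-!
# Row 262, RSD (helper86), part 2: the residue theorem

* `exists_pf`    : partial fractions; `sum_of_od` : a local relation is a numerical relation;
* `curve`        : the residue theorem on a curve (average over the Galois group);
* `Lg a c`, `bnum_of_lg` : any dimension, logarithmic poles, derivations;
* `Rg V`, `bnum_of_log`  : the same for a differential form.
-/

set_option autoImplicit false

noncomputable section

namespace Crest.Agent.X262.Rsd

open Crest.Agent.X277 Crest.Agent.X277.BD Crest.Agent.X277.Pst Crest.Agent.X277.BD.Cyc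
open Crest.Agent.X277.Neg (nv nv_triv IsNv isNv_nv)
open Crest.Agent.X262.Geo
open WithZero KaehlerDifferential Polynomial

variable {k F : Type} [Field k] [Field F] [Algebra k F] [CharZero k]

section PF

variable {δ : Derivation k F F} {t : F}

/-- exact values and simple fractions -/
def PF (δ : Derivation k F F) (t : F) : Submodule k F :=
  LinearMap.range δ.toLinearMap ⊔ Submodule.span k (Set.range fun α : k => (t - algebraMap k F α)⁻¹)

theorem zpow_mem (ht : δ t = 1) (α : k) (m : ℤ) : (t - algebraMap k F α) ^ m ∈ PF δ t := by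
  have h1 : δ (t - algebraMap k F α) = 1 := by rw [map_sub, ht, Derivation.map_algebraMap, sub_zero]
  by_cases hm : m = -1
  · rw [hm, zpow_neg_one]
    exact Submodule.mem_sup_right (Submodule.subset_span ⟨α, rfl⟩)
  · have h2 : ((m + 1 : ℤ) : k) ≠ 0 := Int.cast_ne_zero.2 (by omega)
    refine Submodule.mem_sup_left ⟨((m + 1 : ℤ) : k)⁻¹ • (t - algebraMap k F α) ^ (m + 1), ?_⟩
    change δ _ = _
    rw [Derivation.map_smul, Derivation.leibniz_zpow, h1, smul_eq_mul, mul_one, add_sub_cancel_right,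
      ← Int.cast_smul_eq_zsmul k, smul_smul, inv_mul_cancel₀ h2, one_smul]

theorem aeval_mem (ht : δ t = 1) (p : k[X]) : aeval t p ∈ PF δ t := by
  induction p using Polynomial.induction_on' with
  | add p q hp hq => exact map_add (aeval t) p q ▸ add_mem hp hq
  | monomial n c =>
    rw [aeval_monomial, ← Algebra.smul_def]
    simpa using Submodule.smul_mem _ c (zpow_mem ht 0 n)

theorem div_mem [IsAlgClosed k] (ht : δ t = 1) (h0 : Transcendental k t) (n : ℕ) :
    ∀ p q : k[X], q.natDegree = n → aeval t p / aeval t q ∈ PF δ t := by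
  induction n with
  | zero =>
    intro p q hq
    rw [eq_C_of_natDegree_eq_zero hq, aeval_C, div_eq_inv_mul, ← map_inv₀, ← Algebra.smul_def]
    exact Submodule.smul_mem _ _ (aeval_mem ht p)
  | succ n ih =>
    intro p q hq
    have hq0 : q ≠ 0 := fun h => by simp [h] at hq
    obtain ⟨α, hα⟩ := IsAlgClosed.exists_root q (by rw [degree_eq_natDegree hq0, hq]; norm_cast)
    obtain ⟨q1, h1, h2⟩ := exists_eq_pow_rootMultiplicity_mul_and_not_dvd q hq0 α
    obtain ⟨m, hm⟩ := Nat.exists_eq_succ_of_ne_zero ((rootMultiplicity_pos hq0).2 hα).ne'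
    rw [hm] at h1
    have h3 : q1.eval α ≠ 0 := fun h => h2 (dvd_iff_isRoot.2 h)
    have h4 : q1 ≠ 0 := fun h => h3 (by simp [h])
    obtain ⟨p1, h5⟩ : X - C α ∣ p - C (p.eval α / q1.eval α) * q1 :=
      dvd_iff_isRoot.2 (by simp [div_mul_cancel₀ _ h3])
    have h6 : ∀ r : k[X], r ≠ 0 → aeval t r ≠ 0 := fun r hr h => h0 ⟨r, hr, h⟩
    have h7 := h6 _ (X_sub_C_ne_zero α)
    have h8 := h6 _ h4
    have h9 := ih p1 ((X - C α) ^ m * q1) (by
      rw [h1, pow_succ, mul_right_comm, natDegree_mul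
        (mul_ne_zero (pow_ne_zero _ (X_sub_C_ne_zero α)) h4) (X_sub_C_ne_zero α),
        natDegree_X_sub_C] at hq
      omega)
    have h10 := Submodule.smul_mem _ (p.eval α / q1.eval α) (zpow_mem ht α (-(m + 1 : ℕ)))
    generalize p.eval α / q1.eval α = e at h5 h10
    convert add_mem h9 h10 using 1
    rw [h1, eq_add_of_sub_eq h5, zpow_neg, zpow_natCast, Algebra.smul_def, Nat.succ_eq_add_one]
    simp only [map_add, map_mul, map_pow, map_sub, aeval_X, aeval_C] at h7 ⊢
    field_simp
    ring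

omit [CharZero k] in
/-- partial fractions -/
theorem exists_pf {h : F} (hh : h ∈ PF δ t) : ∃ (G : F) (n : ℕ) (ρ α : Fin n → k),
    h = δ G + ∑ i, ρ i • (t - algebraMap k F (α i))⁻¹ := by
  obtain ⟨_, ⟨G, rfl⟩, w, hw, rfl⟩ := Submodule.mem_sup.1 hh
  obtain ⟨n, ρ, g, rfl⟩ := Submodule.mem_span_set'.1 hw
  choose α hα using fun i => (g i).2
  exact ⟨G, n, ρ, α, by simp only [← hα]; rfl⟩

end PF

variable [Algebra.EssFiniteType k F]

/-- the cycle formula for a finite set of classes, with one set of primes -/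
theorem exists_cyc' (L : List (BD k F)) : ∃ T : Finset (RZ k F), (∀ V ∈ T, Dvs V) ∧
    ∀ a ∈ L, ∀ l : List (BD k F), (∀ b ∈ l, b ∈ L) → bnum (a :: l) = ∑ V ∈ T, od V a * dg V l := by
  obtain ⟨H, h1, -, -, -, h4⟩ := exists_model Free.zero ∅ (by simp) L
  have h5 : {V | Prm H V ∧ ∃ a ∈ L, od V a ≠ 0}.Finite :=
    ((List.finite_toSet L).biUnion fun a _ => fin_od h1 a).subset fun V ⟨h, a, ha, h'⟩ =>
      Set.mem_biUnion ha ⟨h, h'⟩
  exact ⟨h5.toFinset, fun V hV => (h5.mem_toFinset.1 hV).1.dvs, fun a ha l hl =>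
    bnum_cyc h1 (h4 a ha) (fun b hb => h4 b (hl b hb)) (fun V hV => (h5.mem_toFinset.1 hV).1)
      fun V hV h => h5.mem_toFinset.2 ⟨hV, a, ha, h⟩⟩

variable {J : Type} [Fintype J]

theorem sum_of_od {a : J → BD k F} {c : J → k}
    (h : ∀ V, Dvs V → ∑ j, c j * (od V (a j) : k) = 0) (l : List (BD k F)) :
    ∑ j, c j * (bnum (a j :: l) : k) = 0 := by
  obtain ⟨T, h1, h2⟩ := exists_cyc' (Finset.univ.toList.map a ++ l)
  have h3 : ∀ j, bnum (a j :: l) = ∑ V ∈ T, od V (a j) * dg V l := fun j =>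
    h2 _ (by simp) l fun b hb => by simp [hb]
  simp only [h3, Int.cast_sum, Int.cast_mul, Finset.mul_sum, ← mul_assoc]
  rw [Finset.sum_comm]
  exact Finset.sum_eq_zero fun V hV => by rw [← Finset.sum_mul, h V (h1 V hV), zero_mul]

/-- the local condition: `h` has the residue divisor `∑ c j • a j` -/
def Res (δ : Derivation k F F) (h : F) (a : J → BD k F) (c : J → k) : Prop :=
  ∀ V : RZ k F, ∃ (g : F) (y : J → F), (∀ j, V.v (y j) = (a j).val V) ∧
    h - δ g - ∑ j, c j • (δ (y j) / y j) ∈ Rd δ V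

/-- averaging over a family of embeddings -/
theorem avg {L : Type} [Field L] [Algebra k L] [Algebra.EssFiniteType k L] (hF : dim k F = 1)
    (hL : dim k L = 1) {δ : Derivation k F F} {D : Derivation k L L} {t : L} (ht : D t = 1)
    {I : Type} [Fintype I] [Nonempty I] (α : I → F →ₐ[k] L) (hα : ∀ i x, D (α i x) = α i (δ x))
    {h : F} (hh : ∑ i, α i h ∈ PF D t) {a : J → BD k F} {c : J → k} (H : Res δ h a c) :
    ∑ j, c j * (bnum [a j] : k) = 0 := by
  obtain ⟨G, n, ρ, β, hG⟩ := exists_pf hh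
  have h1 : ∀ i, D (t - algebraMap k L (β i)) = 1 := fun i => by
    rw [map_sub, ht, Derivation.map_algebraMap, sub_zero]
  have h2 : ∀ i, t - algebraMap k L (β i) ≠ 0 := fun i h => by simpa [h] using h1 i
  have key := sum_of_od (J := (I × J) ⊕ Fin n)
    (a := Sum.elim (fun p => pb (α p.1) (a p.2)) fun i => pr k (t - algebraMap k L (β i)))
    (c := Sum.elim (fun p => -c p.2) ρ) (fun W hW => ?_) []
  · simp only [Fintype.sum_sum_type, Sum.elim_inl, Sum.elim_inr, bnum_pr, Int.cast_zero, mul_zero,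
      Finset.sum_const_zero, add_zero, Fintype.sum_prod_type] at key
    have h3 : ∀ i j, bnum [pb (α i) (a j)] = deg (α i) * bnum [a j] := fun i j =>
      bnum_pb (α i) [a j]
    have h4 : ((∑ i, deg (α i) : ℕ) : k) ≠ 0 := Nat.cast_ne_zero.2 (Finset.sum_pos
      (fun i _ => (deg_pos_iff (α i)).2 (hL.trans hF.symm)) Finset.univ_nonempty).ne'
    refine (mul_eq_zero.1 ?_).resolve_left h4
    rw [← neg_eq_zero, ← key, Nat.cast_sum, Finset.sum_mul, ← Finset.sum_neg_distrib]
    refine Finset.sum_congr rfl fun i _ => ?_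
    rw [Finset.mul_sum, ← Finset.sum_neg_distrib]
    refine Finset.sum_congr rfl fun j _ => ?_
    rw [h3]
    push_cast
    ring
  choose g y h3 h4 using fun i => H (cm (α i : F →+* L) (alg_ov (α i)) W)
  have h5 : ∀ i j, W.v (α i (y i j)) = (pb (α i) (a j)).val W := fun i j => (val_mp (h3 i j)).symm
  have h6 : ∀ i, ∀ z ∈ Rd δ (cm (α i : F →+* L) (alg_ov (α i)) W), α i z ∈ Rd D W := fun i z hz => by
    induction hz using AddSubgroup.closure_induction with
    | mem z hz =>
      obtain ⟨x, hx, x', hx', rfl⟩ := hz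
      exact AddSubgroup.subset_closure ⟨α i x, hx, α i x', hx', by rw [map_mul, hα]⟩
    | zero => simp
    | add a b _ _ ha hb => exact map_add (α i) a b ▸ add_mem ha hb
    | neg a _ ha => exact map_neg (α i) a ▸ neg_mem ha
  have h7 := res_unique (δ := D) hW hL (fun h => by simp [h] at ht) (J := (I × J) ⊕ Fin n)
    (G - ∑ i, α i (g i))
    (y := Sum.elim (fun p => α p.1 (y p.1 p.2)) fun i => t - algebraMap k L (β i))
    (fun p => p.rec (fun p => ne_of_val (h5 p.1 p.2)) h2) (Sum.elim (fun p => -c p.2) ρ) (by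
      convert sum_mem fun i (_ : i ∈ Finset.univ) => h6 i _ (h4 i) using 1
      simp only [Fintype.sum_sum_type, Sum.elim_inl, Sum.elim_inr, h1, map_sub (α _), map_sum,
        map_smul, map_div₀, ← hα, Finset.sum_sub_distrib, hG, map_sub D G, Fintype.sum_prod_type,
        neg_smul, Finset.sum_neg_distrib, one_div]
      abel)
  rw [← h7]
  refine Finset.sum_congr rfl fun p _ => ?_
  rcases p with p | i
  · simp only [Sum.elim_inl, od_of_gen hW (h5 p.1 p.2)]
  · simp only [Sum.elim_inr, od_pr (h2 i)]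

theorem exists_gal (K E : Type) [Field K] [Field E] [Algebra K E] [FiniteDimensional K E]
    [CharZero K] : ∃ (L : Type) (_ : Field L) (_ : Algebra K L) (_ : Algebra E L),
      IsScalarTower K E L ∧ FiniteDimensional K L ∧ IsGalois K L :=
  ⟨IntermediateField.normalClosure K E (AlgebraicClosure E), inferInstance, inferInstance,
    inferInstance, inferInstance, inferInstance, IsGalois.mk⟩

theorem tb_of (hF : dim k F = 1) {t : F} (ht : Transcendental k t) :
    IsTranscendenceBasis k fun _ : Unit => t :=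
  (algebraicIndependent_unique_type_iff.2 ht).isTranscendenceBasis_of_trdeg_le_of_finite
    (by rw [trdeg_eq_dim, hF]; simp)

theorem curve_aux [IsAlgClosed k] (hF : dim k F = 1) {δ : Derivation k F F} {t : F} (ht : δ t ≠ 0)
    (h0 : Transcendental k t) (K : Type) [Field K] [Algebra k K] [Algebra K F]
    [IsScalarTower k K F] [FiniteDimensional K F] (h1K : ∃ s : K, algebraMap K F s = t)
    (h2K : ∀ w : K, ∃ p q : k[X], algebraMap K F w = aeval t p / aeval t q) {h : F}
    {a : J → BD k F} {c : J → k} (H : Res δ h a c) : ∑ j, c j * (bnum [a j] : k) = 0 := by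
  have : CharZero K := charZero_of_injective_algebraMap (algebraMap k K).injective
  obtain ⟨L, _, _, _, _, _, _⟩ := exists_gal K F
  have : FiniteDimensional F L := Module.Finite.of_restrictScalars_finite K F L
  let _ : Algebra k L := ((algebraMap F L).comp (algebraMap k F)).toAlgebra
  have : IsScalarTower k F L := IsScalarTower.of_algebraMap_eq fun c => rfl
  have : IsScalarTower k K L := IsScalarTower.of_algebraMap_eq fun c => by
    rw [IsScalarTower.algebraMap_apply K F L, ← IsScalarTower.algebraMap_apply k K F]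
    rfl
  have : Algebra.EssFiniteType k L := Algebra.EssFiniteType.comp k F L
  let ι := IsScalarTower.toAlgHom k F L
  have hL : dim k L = 1 := ((deg_pos_iff ι).1 (deg_tower (k := k) (F := F) (E := L) ▸
    Module.finrank_pos)).trans hF
  have h1 : Transcendental k (ι t) := (transcendental_algebraMap_iff (algebraMap F L).injective).2 h0
  obtain ⟨D, hD⟩ := R023.Ax952.exists_derivation_of_transcendental h1
  let α : (L ≃ₐ[K] L) → F →ₐ[k] L := fun σ => ((σ : L →ₐ[K] L).restrictScalars k).comp ι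
  have h2 : ∀ x : K, ι (algebraMap K F x) = algebraMap K L x := fun x =>
    (IsScalarTower.algebraMap_apply K F L x).symm
  have h3 : ∀ σ, α σ t = ι t := fun σ => by
    obtain ⟨s, rfl⟩ := h1K
    change σ (ι _) = ι _
    rw [h2, AlgEquiv.commutes]
  refine avg hF hL (δ := (δ t)⁻¹ • δ) hD α (fun σ x => sub_eq_zero.1 ?_) (h := (δ t)⁻¹ * h) ?_
    fun V => ?_
  · exact Tri.BC.zero_of_tb (tb_of hF h0) (α σ : F →+* L)
      (AddMonoidHom.mk' (fun x => D (α σ x) - α σ (((δ t)⁻¹ • δ) x)) fun a b => by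
        simp only [map_add]
        abel)
      (fun a b => by
        simp only [AddMonoidHom.mk'_apply, map_mul, Derivation.leibniz, smul_eq_mul, map_add,
          RingHom.coe_coe]
        ring)
      (fun c => by simp) (fun _ => by
        rw [AddMonoidHom.mk'_apply, h3, hD, Derivation.smul_apply, smul_eq_mul,
          inv_mul_cancel₀ ht, map_one, sub_self]) x
  · change ∑ σ : L ≃ₐ[K] L, σ (ι _) ∈ _
    rw [← trace_eq_sum_automorphisms, ← h2]
    obtain ⟨p, q, hw⟩ := h2K (Algebra.trace K L (ι ((δ t)⁻¹ * h)))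
    rw [hw, map_div₀, ← aeval_algHom_apply, ← aeval_algHom_apply]
    exact div_mem hD h1 _ p q rfl
  · obtain ⟨g, y, h4, h5⟩ := H V
    refine ⟨g, y, h4, ?_⟩
    have h6 : ∀ z ∈ Rd δ V, (δ t)⁻¹ * z ∈ Rd ((δ t)⁻¹ • δ) V := fun z hz => by
      induction hz using AddSubgroup.closure_induction with
      | mem z hz =>
        obtain ⟨x, hx, x', hx', rfl⟩ := hz
        exact AddSubgroup.subset_closure ⟨x, hx, x', hx', by simp [mul_left_comm]⟩
      | zero => simp
      | add a b _ _ ha hb => exact mul_add _ a b ▸ add_mem ha hb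
      | neg a _ ha => exact mul_neg _ a ▸ neg_mem ha
    convert h6 _ h5 using 1
    simp only [Derivation.smul_apply, smul_eq_mul, mul_sub, Finset.mul_sum, mul_smul_comm,
      mul_div_assoc]

/-- **the residue theorem** on a curve -/
theorem curve [IsAlgClosed k] (hF : dim k F = 1) {δ : Derivation k F F} (hδ : δ ≠ 0) {h : F}
    {a : J → BD k F} {c : J → k} (H : Res δ h a c) : ∑ j, c j * (bnum [a j] : k) = 0 := by
  obtain ⟨t, ht⟩ : ∃ t, δ t ≠ 0 := by
    by_contra h
    push Not at h
    exact hδ (Derivation.ext h)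
  have h0 : Transcendental k t := fun h => ht (R023.Ax952.derivation_eq_zero_of_isAlgebraic δ h)
  let K := IntermediateField.adjoin k (Set.range fun _ : Unit => t)
  have := (tb_of hF h0).isAlgebraic_field
  have : Algebra.EssFiniteType K F := Algebra.EssFiniteType.of_comp k K F
  have : FiniteDimensional K F := Algebra.finite_of_essFiniteType_of_isAlgebraic
  exact curve_aux hF ht h0 K ⟨⟨t, IntermediateField.subset_adjoin _ _ ⟨(), rfl⟩⟩, rfl⟩
    (fun w => (IntermediateField.mem_adjoin_simple_iff k (α := t) w.1).1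
      (by rw [← Set.range_const (ι := Unit)]; exact w.2)) H

/-- `∑ c j • a j` is the residue divisor of a logarithmic form -/
def Lg (a : J → BD k F) (c : J → k) : Prop :=
  ∀ δ : Derivation k F F, ∃ h : F, ∀ V : RZ k F, ∃ y : J → F, (∀ j, V.v (y j) = (a j).val V) ∧
    h - ∑ j, c j • (δ (y j) / y j) ∈ Rd δ V

/-- restriction to a prime divisor -/
theorem Lg.rs {a : J → BD k F} {c : J → k} (H : Lg a c) {V : RZ k F} (hV : Dvs V) :
    Lg (fun j => (plV V).rs (a j)) c := fun d => by
  obtain ⟨δ, hδ⟩ := exists_lift hV d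
  obtain ⟨h, hh⟩ := H δ
  refine ⟨(plV V).r (h - ∑ j, c j • (δ ((a j).gen V) / (a j).gen V)), fun W => ?_⟩
  obtain ⟨y, h1, h2⟩ := hh ((plV V).cm W)
  have h3 : ∀ j, ((plV V).cm W).v (y j / (a j).gen V) =
      (a j - pr k ((a j).gen V)).val ((plV V).cm W) := fun j => by
    rw [map_div₀, val_sub, val_pr ((a j).gen_ne V), h1]
  have h4 : ∀ j, (a j - pr k ((a j).gen V)).val (plV V).V = 1 := fun j =>
    Pl.val_sub_gen ((a j).v_gen V)
  have h5 : ∀ j, V.v (y j / (a j).gen V) = 1 := fun j => Pl.unit_of_gen (h4 j) (h3 j)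
  refine ⟨fun j => (plV V).r (y j / (a j).gen V), fun j => (Pl.val_res (h4 j) (h3 j)).symm, ?_⟩
  have h6 : ∀ z ∈ Rd δ ((plV V).cm W), z ∈ V.1 ∧ (plV V).r z ∈ Rd d W := fun z hz => by
    induction hz using AddSubgroup.closure_induction with
    | mem z hz =>
      obtain ⟨x, hx, x', hx', rfl⟩ := hz
      exact ⟨mul_mem hx.1 (hδ _ hx'.1).1, AddSubgroup.subset_closure ⟨_, hx.2, _, hx'.2, by
        rw [Pl.r_mul (p := plV V) hx.1 (hδ _ hx'.1).1, (hδ _ hx'.1).2]⟩⟩
    | zero => simp
    | add a b _ _ ha hb =>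
      exact ⟨add_mem ha.1 hb.1, Pl.r_add (p := plV V) ha.1 hb.1 ▸ add_mem ha.2 hb.2⟩
    | neg a _ ha => exact ⟨neg_mem ha.1, Pl.r_neg (p := plV V) ha.1 ▸ neg_mem ha.2⟩
  have h7 : ∀ s : Finset J, ∑ j ∈ s, c j • (δ (y j / (a j).gen V) / (y j / (a j).gen V)) ∈ V.1 ∧
      (plV V).r (∑ j ∈ s, c j • (δ (y j / (a j).gen V) / (y j / (a j).gen V))) =
        ∑ j ∈ s, c j • (d ((plV V).r (y j / (a j).gen V)) / (plV V).r (y j / (a j).gen V)) := by
    intro s
    induction s using Finset.cons_induction with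
    | empty => simp
    | cons j s hj ih =>
      have e1 := RZ.le_one_iff.1 (h5 j).le
      have e2 : δ (y j / (a j).gen V) / (y j / (a j).gen V) ∈ V.1 := RZ.le_one_iff.1 (by
        rw [map_div₀ _ (δ _), h5, div_one]
        exact RZ.le_one_iff.2 (hδ _ e1).1)
      have e3 := mul_mem (V.2 (c j)) e2
      rw [Finset.sum_cons, Finset.sum_cons, Algebra.smul_def, Algebra.smul_def,
        Pl.r_add (p := plV V) e3 ih.1, ih.2, Pl.r_mul (p := plV V) (V.2 (c j)) e2, lnr_plV,
        Pl.r_div (p := plV V) (hδ _ e1).1 (h5 j), (hδ _ e1).2]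
      exact ⟨add_mem e3 ih.1, rfl⟩
  have h8 : h - ∑ j, c j • (δ ((a j).gen V) / (a j).gen V) = h - ∑ j, c j • (δ (y j) / y j) +
      ∑ j, c j • (δ (y j / (a j).gen V) / (y j / (a j).gen V)) := by
    simp only [dlog_div (ne_of_val (h1 _)) (gen_ne _ _), smul_sub, Finset.sum_sub_distrib]
    abel
  rw [h8, Pl.r_add (p := plV V) (h6 _ h2).1 (h7 _).1, (h7 _).2, add_sub_cancel_right]
  exact (h6 _ h2).2

/-- the residue divisor of a logarithmic form is numerically trivial -/
theorem bnum_of_lg [IsAlgClosed k] (c : J → k) (n : ℕ) : ∀ (F : Type) [Field F] [Algebra k F]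
    [Algebra.EssFiniteType k F] (a : J → BD k F), Lg a c → ∀ l : List (BD k F), l.length = n →
    ∑ j, c j * (bnum (a j :: l) : k) = 0 := by
  induction n with
  | zero =>
    intro F _ _ _ a H l hl
    rw [List.length_eq_zero_iff.1 hl]
    by_cases hF : dim k F = 1
    · obtain ⟨t, ht⟩ := exists_tb (k := k) F
      obtain ⟨δ, hδ⟩ := R023.Ax952.exists_derivation_of_transcendental
        (ht.1.transcendental ⟨0, by omega⟩)
      obtain ⟨h, hh⟩ := H δ
      refine curve hF (δ := δ) (fun h => by simp [h] at hδ) (h := h) fun V => ?_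
      obtain ⟨y, h1, h2⟩ := hh V
      exact ⟨0, y, h1, by simpa using h2⟩
    · exact Finset.sum_eq_zero fun j _ => by
        rw [bnum_of_ne (by simpa using Ne.symm hF), Int.cast_zero, mul_zero]
  | succ n ih =>
    intro F _ _ _ a H l hl
    obtain ⟨b, l, rfl⟩ := List.exists_cons_of_length_eq_add_one hl
    obtain ⟨T, h1, h2⟩ := exists_cyc' (b :: (Finset.univ.toList.map a ++ l))
    have h3 : ∀ j, bnum (a j :: b :: l) = ∑ V ∈ T, od V b * dg V (a j :: l) := fun j => by
      rw [bnum_swap]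
      refine h2 _ (by simp) _ fun x hx => List.mem_cons_of_mem _ ?_
      rcases List.mem_cons.1 hx with rfl | hx
      · simp
      · simp [hx]
    simp only [h3, Int.cast_sum, Int.cast_mul, Finset.mul_sum, mul_left_comm (c _)]
    rw [Finset.sum_comm]
    refine Finset.sum_eq_zero fun V hV => ?_
    have := essFT_Rf (h1 V hV)
    have h4 := ih (Rf V) _ (H.rs (h1 V hV)) (l.map (plV V).rs) (by simpa using hl)
    simp only [Geo.dg_eq, List.map_cons]
    rw [← Finset.mul_sum, h4, mul_zero]

omit [CharZero k] [Algebra.EssFiniteType k F] in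
/-- the forms which are regular at `V` -/
def Rg (V : RZ k F) : AddSubgroup Ω[F⁄k] :=
  AddSubgroup.closure {ω | ∃ x ∈ V.1, ∃ y ∈ V.1, ω = x • D k F y}

omit [CharZero k] [Algebra.EssFiniteType k F] in
theorem Rg.rd {V : RZ k F} {ω : Ω[F⁄k]} (h : ω ∈ Rg V) (δ : Derivation k F F) :
    δ.liftKaehlerDifferential ω ∈ Rd δ V := by
  induction h using AddSubgroup.closure_induction with
  | mem z hz =>
    obtain ⟨x, hx, y, hy, rfl⟩ := hz
    exact AddSubgroup.subset_closure ⟨x, hx, y, hy, by simp⟩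
  | zero => simp
  | add a b _ _ ha hb => exact map_add δ.liftKaehlerDifferential a b ▸ add_mem ha hb
  | neg a _ ha => exact map_neg δ.liftKaehlerDifferential a ▸ neg_mem ha

/-- **the residue theorem**, any dimension -/
theorem bnum_of_log [IsAlgClosed k] (ω : Ω[F⁄k]) (a : J → BD k F) (c : J → k)
    (h : ∀ V : RZ k F, ∃ y : J → F, (∀ j, V.v (y j) = (a j).val V) ∧
      ω - ∑ j, c j • ((y j)⁻¹ • D k F (y j)) ∈ Rg V) (l : List (BD k F)) :
    ∑ j, c j * (bnum (a j :: l) : k) = 0 :=
  bnum_of_lg c _ F a (fun δ => ⟨δ.liftKaehlerDifferential ω, fun V => by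
    obtain ⟨y, h1, h2⟩ := h V
    refine ⟨y, h1, ?_⟩
    convert Rg.rd h2 δ using 1
    simp [div_eq_inv_mul]⟩) l rfl

end Crest.Agent.X262.Rsd
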