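import Crest.Agent.X262.Geo.Val
import Crest.Agent.X277.Tri.BC

/-!
# Row 262, RSD (helper86), part 1: derivations at a divisorial valuation

* `Rd δ V`    : the values `∑ x * δ y`, `x, y ∈ V`;
* `der_bdd`   : a derivation is bounded on `V`; `exists_res_der` : the induced derivation;
* `der_le`    : a bound on residual coordinates and on a uniformiser is a bound on `V`;
* `exists_lift` : derivations of the residue field lift;
* `res_unique`  : uniqueness of residues on a curve.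
-/

set_option autoImplicit false

noncomputable section

namespace Crest.Agent.X262.Rsd

open Crest.Agent.X277 Crest.Agent.X277.BD Crest.Agent.X277.Pst Crest.Agent.X277.BD.Cyc
open Crest.Agent.X277.Neg (nv nv_triv IsNv isNv_nv)
open Crest.Agent.X262.Geo
open WithZero KaehlerDifferential

variable {k F : Type} [Field k] [Field F] [Algebra k F]

/-- the values of the regular forms on a derivation -/
def Rd (δ : Derivation k F F) (V : RZ k F) : AddSubgroup F :=
  AddSubgroup.closure {z | ∃ x ∈ V.1, ∃ y ∈ V.1, z = x * δ y}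

variable {δ : Derivation k F F} {V : RZ k F} {x y z : F}

theorem Rd.le {Γ : Type} [LinearOrderedCommGroupWithZero Γ] {v : Valuation F Γ} {β : Γ}
    (h1 : ∀ x ∈ V.1, v x ≤ 1) (h2 : ∀ x ∈ V.1, v (δ x) ≤ β) (hz : z ∈ Rd δ V) : v z ≤ β := by
  induction hz using AddSubgroup.closure_induction with
  | mem z hz =>
    obtain ⟨x, hx, y, hy, rfl⟩ := hz
    rw [map_mul]
    exact (mul_le_of_le_one_left' (h1 x hx)).trans (h2 y hy)
  | zero => simp
  | add a b _ _ ha hb => exact (v.map_add a b).trans (max_le ha hb)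
  | neg a _ ha => rwa [Valuation.map_neg]

theorem dlog_mul (hx : x ≠ 0) (hy : y ≠ 0) : δ (x * y) / (x * y) = δ x / x + δ y / y := by
  rw [Derivation.leibniz, smul_eq_mul, smul_eq_mul]
  field_simp
  ring

theorem dlog_div (hx : x ≠ 0) (hy : y ≠ 0) : δ (x / y) / (x / y) = δ x / x - δ y / y := by
  have h := dlog_mul (δ := δ) (div_ne_zero hx hy) hy
  rw [div_mul_cancel₀ _ hy] at h
  rw [h, add_sub_cancel_right]

theorem dlog_zpow (hx : x ≠ 0) (m : ℤ) : δ (x ^ m) / x ^ m = m * (δ x / x) := by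
  rw [Derivation.leibniz_zpow, zpow_sub_one₀ hx, smul_eq_mul, zsmul_eq_mul]
  have := zpow_ne_zero m hx
  field_simp

theorem dlog_mem (hx : V.v x = 1) : δ x / x ∈ Rd δ V :=
  AddSubgroup.subset_closure ⟨x⁻¹, RZ.le_one_iff.1 (by rw [map_inv₀, hx, inv_one]), x,
    RZ.le_one_iff.1 hx.le, by rw [div_eq_inv_mul]⟩

/-- the derivation induced on the residue field -/
theorem exists_res_der (h1 : ∀ x ∈ V.1, δ x ∈ V.1) (h2 : ∀ x, V.v x < 1 → V.v (δ x) < 1) :
    ∃ d : Rf V →+ Rf V, (∀ x ∈ V.1, d ((plV V).r x) = (plV V).r (δ x)) ∧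
      (∀ a b, d (a * b) = a * d b + b * d a) ∧ ∀ c : k, d (algebraMap k (Rf V) c) = 0 := by
  choose s hs using surj_plV V
  have hs' : ∀ a, (plV V).r (s a : F) = a := fun a => ((plV V).r_coe _).trans (hs a)
  have key : ∀ x ∈ V.1, (plV V).r (δ (s ((plV V).r x) : F)) = (plV V).r (δ x) := fun x hx => by
    have h3 : (s ((plV V).r x) : F) ∈ V.1 := (s _).2
    have h4 := (Pl.r_eq_zero (p := plV V) (sub_mem h3 hx)).1
      (by rw [Pl.r_sub (p := plV V) h3 hx, hs', sub_self])
    have h5 := (Pl.r_eq_zero (p := plV V) (h1 _ (sub_mem h3 hx))).2 (h2 _ h4)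
    rwa [map_sub, Pl.r_sub (p := plV V) (h1 _ h3) (h1 _ hx), sub_eq_zero] at h5
  have hm : ∀ a, (s a : F) ∈ V.1 := fun a => (s a).2
  refine ⟨AddMonoidHom.mk' (fun a => (plV V).r (δ (s a : F))) fun a b => ?_, key, fun a b => ?_,
    fun c => ?_⟩
  · have h := key _ (add_mem (hm a) (hm b))
    rwa [Pl.r_add (p := plV V) (hm a) (hm b), hs', hs', map_add,
      Pl.r_add (p := plV V) (h1 _ (hm a)) (h1 _ (hm b))] at h
  · have h := key _ (mul_mem (hm a) (hm b))
    rw [Pl.r_mul (p := plV V) (hm a) (hm b), hs', hs', Derivation.leibniz, smul_eq_mul, smul_eq_mul,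
      Pl.r_add (p := plV V) (mul_mem (hm a) (h1 _ (hm b))) (mul_mem (hm b) (h1 _ (hm a))),
      Pl.r_mul (p := plV V) (hm a) (h1 _ (hm b)), Pl.r_mul (p := plV V) (hm b) (h1 _ (hm a)),
      hs', hs'] at h
    exact h
  · have h := key _ (V.2 c)
    rw [lnr_plV V c, Derivation.map_algebraMap, Pl.r_zero] at h
    exact h

variable [CharZero k] [Algebra.EssFiniteType k F]

/-- a derivation is bounded on a divisorial valuation ring -/
theorem der_bdd (hV : Dvs V) (δ : Derivation k F F) : ∃ γ, ∀ x ∈ V.1, nv V (δ x) ≤ γ := by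
  classical
  obtain ⟨M, D, rfl⟩ := exists_mdl_pdiv hV
  rw [nv_rzD]
  obtain ⟨i, hi⟩ := AN.G2.exists_ch (X := M.X) D.2.ov
  obtain ⟨s, hs⟩ := M.X.A_fg (Finset.singleton_nonempty i)
  let γ := s.sup (fun a => D.v (δ a)) ⊔ Finset.univ.sup fun j => D.v (δ (M.X.t j / M.X.t i))
  have h0 : ∀ a ∈ M.X.A {i}, D.v a ≤ 1 := hi
  have hR := M.X.R_le (Finset.singleton_nonempty i)
  have h1 : ∀ a ∈ M.X.toCoord.R {i}, D.v (δ a) ≤ γ := fun a ha => by
    induction ha using Algebra.adjoin_induction with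
    | mem a ha =>
      obtain ⟨i', hi', j, rfl⟩ := ha
      rw [Finset.mem_singleton.1 hi']
      exact le_sup_of_le_right
        (Finset.le_sup (f := fun j => D.v (δ (M.X.t j / M.X.t i))) (Finset.mem_univ j))
    | algebraMap c => simp
    | add a b _ _ ha hb => rw [map_add]; exact (D.v.map_add _ _).trans (max_le ha hb)
    | mul a b ha' hb' ha hb =>
      rw [Derivation.leibniz, smul_eq_mul, smul_eq_mul]
      refine (D.v.map_add _ _).trans (max_le ?_ ?_) <;> rw [map_mul]
      · exact (mul_le_of_le_one_left' (h0 _ (hR ha'))).trans hb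
      · exact (mul_le_of_le_one_left' (h0 _ (hR hb'))).trans ha
  have h2 : ∀ a ∈ M.X.A {i}, D.v (δ a) ≤ γ := fun a ha => by
    have h3 : a ∈ Submodule.span (M.X.toCoord.R {i}) (s : Set F) := by rwa [← SetLike.mem_coe, hs]
    clear ha
    induction h3 using Submodule.span_induction with
    | mem a ha => exact le_sup_of_le_left (Finset.le_sup (f := fun a => D.v (δ a)) ha)
    | zero => simp
    | add a b _ _ ha hb => rw [map_add]; exact (D.v.map_add _ _).trans (max_le ha hb)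
    | smul c a ha' ha =>
      have h4 : a ∈ M.X.A {i} := by rwa [← SetLike.mem_coe, ← hs]
      change D.v (δ ((c : F) * a)) ≤ γ
      rw [Derivation.leibniz, smul_eq_mul, smul_eq_mul]
      refine (D.v.map_add _ _).trans (max_le ?_ ?_) <;> rw [map_mul]
      · exact (mul_le_of_le_one_left' (h0 _ (hR c.2))).trans ha
      · exact (mul_le_of_le_one_left' (h0 _ h4)).trans (h1 _ c.2)
  refine ⟨γ, fun x hx => ?_⟩
  obtain ⟨b, hb, hb1, hbx⟩ := D.2.loc i hi x hx
  have h3 : b * δ x = δ (b * x) - x * δ b := by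
    rw [Derivation.leibniz, smul_eq_mul, smul_eq_mul, add_sub_cancel_right]
  have h4 : D.v (δ x) = D.v (b * δ x) := by rw [map_mul, show D.v b = 1 from hb1, one_mul]
  rw [h4, h3]
  refine (D.v.map_sub _ _).trans (max_le (h2 _ hbx) ?_)
  rw [map_mul]
  exact (mul_le_of_le_one_left' hx).trans (h2 _ hb)

theorem div_mem_of_lt (hV : Dvs V) (hz : nv V z = exp (-1)) (hx : V.v x < 1) : x / z ∈ V.1 := by
  rw [← nv_le_one hV, map_div₀, hz, div_le_one₀ exp_pos]
  have h := (nv_lt_one hV).2 hx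
  by_cases h0 : nv V x = 0
  · simp [h0]
  · rw [← exp_log h0, ← exp_zero, exp_lt_exp] at h
    rw [← exp_log h0, exp_le_exp]
    omega

omit [CharZero k] [Algebra.EssFiniteType k F] in
theorem ne_of_unif (hz : nv V z = exp (-1)) : z ≠ 0 := fun h => by
  rw [h, map_zero] at hz
  exact exp_ne_zero hz.symm

/-- a bound on residual coordinates and on a uniformiser is a bound on the valuation ring -/
theorem der_le (hV : Dvs V) {ι : Type} {y : ι → F} (hy : ∀ i, y i ∈ V.1)
    (hb : IsTranscendenceBasis k fun i => (plV V).r (y i)) (hz : nv V z = exp (-1)) {β : ℤᵐ⁰}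
    (h1 : ∀ i, nv V (δ (y i)) ≤ β) (h2 : nv V (δ z) ≤ β) : ∀ x ∈ V.1, nv V (δ x) ≤ β := by
  by_contra hc
  push Not at hc
  obtain ⟨γ, hγ⟩ := der_bdd hV δ
  obtain ⟨m, ⟨x0, hx0, h3, h4⟩, h5⟩ := Int.exists_greatest_of_bdd
    (P := fun m => ∃ x ∈ V.1, nv V (δ x) = exp m ∧ β < exp m)
    ⟨log γ, fun m ⟨x, hx, h, _⟩ => le_log_of_exp_le (h ▸ hγ x hx)⟩ (by
      obtain ⟨x, hx, h⟩ := hc
      have h0 := (zero_le.trans_lt h).ne'
      exact ⟨log (nv V (δ x)), x, hx, (exp_log h0).symm, by rwa [exp_log h0]⟩)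
  have h6 : ∀ x ∈ V.1, nv V (δ x) ≤ exp m := fun x hx => by
    rcases le_or_gt (nv V (δ x)) β with h | h
    · exact h.trans h4.le
    · have h0 := (zero_le.trans_lt h).ne'
      rw [← exp_log h0, exp_le_exp]
      exact h5 _ ⟨x, hx, (exp_log h0).symm, by rwa [exp_log h0]⟩
  have hπ : δ x0 ≠ 0 := fun h => by
    rw [h, map_zero] at h3
    exact exp_ne_zero h3.symm
  let D : Derivation k F F := (δ x0)⁻¹ • δ
  have hD : ∀ x, nv V (D x) = nv V (δ x) / exp m := fun x => by
    rw [Derivation.smul_apply, smul_eq_mul, map_mul, map_inv₀, h3, div_eq_inv_mul]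
  have h7 : ∀ x ∈ V.1, D x ∈ V.1 := fun x hx => by
    rw [← nv_le_one hV, hD, div_le_one₀ exp_pos]
    exact h6 x hx
  have h8 : ∀ x, nv V (δ x) ≤ β → V.v (D x) < 1 := fun x hx => by
    rw [← nv_lt_one hV, hD, div_lt_one₀ exp_pos]
    exact hx.trans_lt h4
  have hz1 : V.v z < 1 := by rw [← nv_lt_one hV, hz, ← exp_zero, exp_lt_exp]; omega
  obtain ⟨d, hd, hm, h0⟩ := exists_res_der h7 fun x hx => by
    have hu := div_mem_of_lt hV hz hx
    rw [← div_mul_cancel₀ x (ne_of_unif hz), Derivation.leibniz, smul_eq_mul, smul_eq_mul]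
    refine V.v.map_add_lt ?_ ?_ <;> rw [map_mul]
    · exact (mul_le_of_le_one_left' (RZ.le_one_iff.2 hu)).trans_lt (h8 z h2)
    · exact (mul_le_of_le_one_right' (RZ.le_one_iff.2 (h7 _ hu))).trans_lt hz1
  have h9 := Tri.BC.zero_of_tb hb (RingHom.id _) d hm h0
    (fun i => (hd _ (hy i)).trans ((Pl.r_eq_zero (p := plV V) (h7 _ (hy i))).2 (h8 _ (h1 i))))
    ((plV V).r x0)
  rw [hd _ hx0, Derivation.smul_apply, smul_eq_mul, inv_mul_cancel₀ hπ, Pl.r_one] at h9
  exact one_ne_zero h9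

omit [CharZero k] [Algebra.EssFiniteType k F] in
theorem eq_zero_of_on (h : ∀ x ∈ V.1, δ x = 0) : δ = 0 := by
  ext x
  rcases V.1.mem_or_inv_mem x with hx | hx
  · exact h x hx
  · rw [← inv_inv x, Derivation.leibniz_inv, h _ hx, smul_zero, Derivation.zero_apply]

theorem exists_tb (F : Type) [Field F] [Algebra k F] [Algebra.EssFiniteType k F] :
    ∃ t : Fin (dim k F) → F, IsTranscendenceBasis k t := by
  obtain ⟨t, ht⟩ := exists_isTranscendenceBasis k F
  have h1 := ht.cardinalMk_eq_trdeg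
  rw [trdeg_eq_dim] at h1
  obtain ⟨e⟩ := Cardinal.mk_eq_nat_iff.1 h1
  exact ⟨_, ht.comp_equiv e.symm⟩

/-- residual coordinates -/
theorem exists_crd (hV : Dvs V) : ∃ y : Fin (dim k (Rf V)) → F, (∀ i, y i ∈ V.1) ∧
    IsTranscendenceBasis k fun i => (plV V).r (y i) := by
  have := essFT_Rf hV
  obtain ⟨t, ht⟩ := exists_tb (k := k) (Rf V)
  choose y hy using fun i => surj_plV V (t i)
  refine ⟨fun i => y i, fun i => (y i).2, ?_⟩
  simpa only [Pl.r_coe, hy] using ht

/-- derivations of the residue field lift -/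
theorem exists_lift (hV : Dvs V) (d : Derivation k (Rf V) (Rf V)) : ∃ δ : Derivation k F F,
    ∀ x ∈ V.1, δ x ∈ V.1 ∧ (plV V).r (δ x) = d ((plV V).r x) := by
  have := essFT_Rf hV
  obtain ⟨y, hy, hb⟩ := exists_crd hV
  obtain ⟨z, hz⟩ := nv_unif hV
  obtain ⟨t, ht⟩ := exists_tb (k := k) F
  obtain ⟨b0, -⟩ := R023.Ax952.exists_diffBasis ht
  let w : Option (Fin (dim k (Rf V))) → Ω[F⁄k] := fun o => D k F (o.elim z y)
  have h1 : ⊤ ≤ Submodule.span F (Set.range w) := by
    by_contra h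
    obtain ⟨f, hf, h2⟩ := Submodule.exists_le_ker_of_lt_top _
      (lt_top_iff_ne_top.2 fun h' => h h'.ge)
    have h3 : ∀ o, f (w o) = 0 := fun o => h2 (Submodule.subset_span ⟨o, rfl⟩)
    have h4 : linearMapEquivDerivation k F f = 0 := eq_zero_of_on fun x hx => by
      have h5 := der_le (δ := linearMapEquivDerivation k F f) hV hy hb hz (β := 0)
        (fun i => by simpa [w] using h3 (some i)) (by simpa [w] using h3 none) x hx
      simpa using h5
    exact hf ((linearMapEquivDerivation k F).map_eq_zero_iff.1 h4)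
  have hcd : Fintype.card (Option (Fin (dim k (Rf V)))) = Module.finrank F Ω[F⁄k] := by
    rw [Module.finrank_eq_card_basis b0]
    simp [dim_Rf' hV]
  let b := basisOfTopLeSpanOfCardEqFinrank w h1 hcd
  choose s hs using surj_plV V
  let δ := linearMapEquivDerivation k F
    (b.constr F fun o => o.elim (0 : F) fun i => s (d ((plV V).r (y i))))
  have h2 : ∀ o, δ (Option.elim o z y) = o.elim (0 : F) fun i => s (d ((plV V).r (y i))) :=
    fun o => by
      change b.constr F _ (w o) = _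
      rw [← congrFun (coe_basisOfTopLeSpanOfCardEqFinrank w h1 hcd) o, Module.Basis.constr_basis]
  have h3 : δ z = 0 := h2 none
  have h4 : ∀ i, δ (y i) = s (d ((plV V).r (y i))) := fun i => h2 (some i)
  have h5 : ∀ x ∈ V.1, δ x ∈ V.1 := fun x hx => (nv_le_one hV).1
    (der_le hV hy hb hz (fun i => (nv_le_one hV).2 (h4 i ▸ (s _).2)) (by simp [h3]) x hx)
  have hz1 : V.v z < 1 := by rw [← nv_lt_one hV, hz, ← exp_zero, exp_lt_exp]; omega
  obtain ⟨d', hd, hm, h0⟩ := exists_res_der h5 fun x hx => by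
    have hu := div_mem_of_lt hV hz hx
    rw [← div_mul_cancel₀ x (ne_of_unif hz), Derivation.leibniz, h3, smul_zero, zero_add,
      smul_eq_mul, map_mul]
    exact (mul_le_of_le_one_right' (RZ.le_one_iff.2 (h5 _ hu))).trans_lt hz1
  refine ⟨δ, fun x hx => ⟨h5 x hx, ?_⟩⟩
  have h6 := Tri.BC.zero_of_tb hb (RingHom.id _) (d' - d.toLinearMap.toAddMonoidHom)
    (fun a b => by
      change d' (a * b) - d (a * b) = a * (d' b - d b) + b * (d' a - d a)
      rw [hm, Derivation.leibniz, smul_eq_mul, smul_eq_mul]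
      ring)
    (fun c => by
      change d' _ - d _ = 0
      rw [h0, Derivation.map_algebraMap, sub_self])
    (fun i => by
      change d' _ - d _ = 0
      rw [hd _ (hy i), h4, Pl.r_coe, hs, sub_self]) ((plV V).r x)
  rw [← hd x hx]
  exact sub_eq_zero.1 h6

/-- **uniqueness of residues** at a point of a curve -/
theorem res_unique (hV : Dvs V) (hd : dim k F = 1) (hδ : δ ≠ 0) {J : Type} [Fintype J] (g : F)
    {y : J → F} (hy : ∀ j, y j ≠ 0) (c : J → k)
    (h : δ g + ∑ j, c j • (δ (y j) / y j) ∈ Rd δ V) :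
    ∑ j, c j * ((log (nv V (y j)) : ℤ) : k) = 0 := by
  obtain ⟨t, ht, hb⟩ := exists_crd hV
  obtain ⟨z, hz⟩ := nv_unif hV
  have hz0 := ne_of_unif hz
  have he : IsEmpty (Fin (dim k (Rf V))) := by
    have h1 := dim_Rf' hV
    rw [show dim k (Rf V) = 0 by omega]
    infer_instance
  have h1 := der_le (δ := δ) hV ht hb hz (fun i => he.elim i) le_rfl
  have h2 : ∀ w ∈ Rd δ V, nv V w ≤ nv V (δ z) := fun w => Rd.le (fun _ => (nv_le_one hV).2) h1
  have h3 : δ z ≠ 0 := fun h0 => hδ (eq_zero_of_on fun x hx => by simpa [h0] using h1 x hx)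
  have h4 : ∀ x, x ≠ 0 → δ x / x + ((log (nv V x) : ℤ) : F) * (δ z / z) ∈ Rd δ V := fun x hx => by
    rw [← dlog_zpow hz0, ← dlog_mul hx (zpow_ne_zero _ hz0)]
    refine dlog_mem ((nv_eq_one hV).1 ?_)
    rw [map_mul, map_zpow₀, hz, ← exp_zsmul, smul_neg, zsmul_one, Int.cast_id, exp_neg,
      exp_log ((map_ne_zero _).2 hx), mul_inv_cancel₀ ((map_ne_zero _).2 hx)]
  have h5 : nv V (δ z) < nv V (δ z / z) := by
    rw [map_div₀, hz, exp_neg, div_inv_eq_mul]
    exact lt_mul_of_one_lt_right (zero_lt_iff.2 ((map_ne_zero _).2 h3))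
      (by rw [← exp_zero, exp_lt_exp]; omega)
  have hc : ∀ c : k, c ≠ 0 → nv V (algebraMap k F c) = 1 := fun c hc =>
    (nv_eq_one hV).2 (V.v_alg hc)
  have h6 : nv V (δ g - (∑ j, c j * ((log (nv V (y j)) : ℤ) : k)) • (δ z / z)) ≤ nv V (δ z) := by
    have h7 : δ g - (∑ j, c j * ((log (nv V (y j)) : ℤ) : k)) • (δ z / z) =
        δ g + ∑ j, c j • (δ (y j) / y j) -
          ∑ j, c j • (δ (y j) / y j + ((log (nv V (y j)) : ℤ) : F) * (δ z / z)) := by
      simp only [smul_add, Finset.sum_add_distrib, Finset.sum_smul, mul_smul, ← zsmul_eq_mul,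
        Int.cast_smul_eq_zsmul]
      abel
    rw [h7]
    refine ((nv V).map_sub _ _).trans (max_le (h2 _ h) ((nv V).map_sum_le fun j _ => ?_))
    rw [Algebra.smul_def, map_mul]
    exact (mul_le_of_le_one_left' (nv_triv V _)).trans (h2 _ (h4 _ (hy j)))
  generalize ∑ j, c j * ((log (nv V (y j)) : ℤ) : k) = C at h6
  by_cases hg : g ∈ V.1
  · by_contra hC
    have h7 : C • (δ z / z) = δ g - (δ g - C • (δ z / z)) := by abel
    have h8 := (h7 ▸ (nv V).map_sub _ _).trans (max_le (h1 g hg) h6)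
    rw [Algebra.smul_def, map_mul, hc C hC, one_mul] at h8
    exact absurd h5 h8.not_gt
  · exfalso
    have hg0 : g ≠ 0 := fun h0 => hg (h0 ▸ zero_mem _)
    have h7 : 1 < nv V g := not_le.1 fun h => hg ((nv_le_one hV).1 h)
    have h8 : ((log (nv V g) : ℤ) : k) ≠ 0 := by
      have := lt_log_of_exp_lt (show exp (0 : ℤ) < nv V g by rwa [exp_zero])
      exact Int.cast_ne_zero.2 this.ne'
    have h9 : nv V (((log (nv V g) : ℤ) : F) * (δ z / z)) = nv V (δ z / z) := by
      rw [map_mul, ← map_intCast (algebraMap k F), hc _ h8, one_mul]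
    have h10 : nv V (δ g / g) = nv V (δ z / z) := by
      rw [← h9, ← Valuation.map_neg _ (_ * _)]
      refine Valuation.map_eq_of_sub_lt _ ?_
      rw [sub_neg_eq_add, Valuation.map_neg, h9]
      exact (h2 _ (h4 g hg0)).trans_lt h5
    have h11 : nv V (δ g) ≤ nv V (δ z / z) := by
      rw [← sub_add_cancel (δ g) (C • (δ z / z))]
      refine ((nv V).map_add _ _).trans (max_le (h6.trans h5.le) ?_)
      rw [Algebra.smul_def, map_mul]
      exact mul_le_of_le_one_left' (nv_triv V _)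
    rw [← div_mul_cancel₀ (δ g) hg0, map_mul, h10] at h11
    exact absurd (lt_mul_of_one_lt_right (zero_le.trans_lt h5) h7) h11.not_gt

end Crest.Agent.X262.Rsd
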